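import Vale.Agent.P070ZQ.Top

open Vale.Agent.P323.Z Vale.Agent.P129Z.S Vale.Agent.P070Z Vale.Agent.P070ZS Vale.Agent.P070ZQ

namespace Vale.Agent.Results.P070.AProvable

universe u v

/-- ZFC proves that some C*-algebra has property (N) and is not isomorphic to any `K(L)`.

(1) There is a sentence `φ` of set theory which says, in every structure, that there is such an
algebra (`Counter`); `φ` has a formal proof from ZFC, and ZFC + `¬ φ` is inconsistent.

(2) Every model of ZFC has such an algebra.

(3) ZFC is consistent, provable means true in all nonempty models, and the models of the list of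
axioms `ZFC` are the models of ZFC.

(4) In the universe of sets, which is a model of ZFC, the internal notions are the usual ones: the
internal real numbers code `ℝ`; every internal C*-algebra codes a C*-algebra `A` and every `A` has
a code; the internal property (N) and the internal isomorphism with the compact operators are those
of `A`. -/
theorem result :
    (∃ φ : Fml 0,
      (∀ (M : Type (u + 1)) (E : M → M → Prop), φ.Sat E Fin.elim0 ↔ Counter E) ∧
      Prf ZFC [] φ ∧ ¬ Con (ZFC ∪ {φ.neg})) ∧
    (∀ (M : Type v) (E : M → M → Prop), IsZFCModel E → Counter E) ∧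
    (Con ZFC ∧
      (∀ (T : Set (Fml 0)) (φ : Fml 0), Prf T [] φ ↔
        ∀ (M : Type v) (E : M → M → Prop), Nonempty M → (∀ ψ ∈ T, ψ.Sat E Fin.elim0) →
          φ.Sat E Fin.elim0) ∧
      ∀ (M : Type v) (E : M → M → Prop), (∀ ψ ∈ ZFC, ψ.Sat E Fin.elim0) ↔ IsZFCModel E) ∧
    (IsZFCModel In.{u} ∧ (∀ R, IsReals In.{u} R → ∃ ρ, CodesReal R ρ) ∧
      (∀ (R : Reals ZFSet.{u}) (K : Scalars ZFSet.{u}) (ρ : ℝ → ZFSet.{u}), CodesReal R ρ →
        IsComplexScalars In R K →
        (∀ H X, IsHilbert In R K H → IsCStar In R K H X →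
          ∃ (A : Type u) (_ : NonUnitalCStarAlgebra A), Codes ρ H X A) ∧
        ∀ (A : Type u) [NonUnitalCStarAlgebra A],
          (∃ H X, IsHilbert In R K H ∧ IsCStar In R K H X ∧ Codes ρ H X A) ∧
          ∀ H X, Codes ρ H X A →
            (PropN In R K H X ↔ P070.Naimark.PropertyN.{u, u} A) ∧
            (IsCompacts In R K H X ↔ P070.Naimark.IsCompacts.{u, u} A)) ∧
      (Counter In.{u} ↔ ∃ (A : Type u) (_ : NonUnitalCStarAlgebra A),
        P070.Naimark.PropertyN.{u, u} A ∧ ¬ P070.Naimark.IsCompacts.{u, u} A)) :=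
  ⟨part1, fun _ _ => counter, part3, zfc_in, fun _ => faith_real,
    fun _ _ _ hρ hK => ⟨fun _ _ => codes_import hρ hK, fun A _ =>
      ⟨codes_export hρ hK A, fun _ _ => codes_transfer hρ hK A⟩⟩, counter_iff⟩

end Vale.Agent.Results.P070.AProvable
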